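import Vale.Agent.P122.C.Val

/-! # P122 / H610 : flags of a valid structure (helper610)

A flag of level `i` is a pair `(x, y)`, `x` a starting node, `y` a cap of level `i`; its node of level `i` is `pth i x y`.
`Fg V s n i` is the finset of the flags of level `i` of the structure `V`; `nd K c f` is the node of level `c ≤ K` of a
flag `f` of level `K`. -/

set_option autoImplicit false

namespace Vale.Agent.P122.H610

open Finset Vale.Agent.P122.C2

variable {s : ℕ → Z2 → Fin 2 → ℝ} {n : ℕ}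

/-- the node of level `i` of the pair (starting node, cap of level `i`) -/
noncomputable def pth (s : ℕ → Z2 → Fin 2 → ℝ) (n : ℕ) : ℕ → Nd → Z2 → Nd
  | 0, x, _ => x
  | i + 1, x, y => nx s n i (pth s n i x (par n y)) y

theorem pth_zero (x : Nd) (y : Z2) : pth s n 0 x y = x := rfl

theorem pth_succ (i : ℕ) (x : Nd) (y : Z2) :
    pth s n (i + 1) x y = nx s n i (pth s n i x (par n y)) y := rfl

theorem pth_succ_τ (i : ℕ) (x : Nd) (y : Z2) : (pth s n (i + 1) x y).τ = y := rfl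

/-- the flags of level `i` -/
noncomputable def Fg (V : Val) (s : ℕ → Z2 → Fin 2 → ℝ) (n : ℕ) : ℕ → Finset (Nd × Z2)
  | 0 => V.X.image fun x => (x, 0)
  | i + 1 => (Fg V s n i).biUnion fun f => (V.G i ((pth s n i f.1 f.2).sg n)).image fun τ' => (f.1, τ')

theorem mem_Fg_zero {V : Val} {f : Nd × Z2} : f ∈ Fg V s n 0 ↔ f.1 ∈ V.X ∧ f.2 = 0 := by
  simp only [Fg, mem_image]
  constructor
  · rintro ⟨x, hx, rfl⟩
    exact ⟨hx, rfl⟩
  · rintro ⟨h1, h2⟩
    exact ⟨f.1, h1, Prod.ext rfl h2.symm⟩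

theorem mem_Fg_succ {V : Val} {i : ℕ} {f : Nd × Z2} :
    f ∈ Fg V s n (i + 1) ↔ ∃ y, (f.1, y) ∈ Fg V s n i ∧ f.2 ∈ V.G i ((pth s n i f.1 y).sg n) := by
  simp only [Fg, mem_biUnion, mem_image]
  constructor
  · rintro ⟨g, hg, τ', hτ, rfl⟩
    exact ⟨g.2, hg, hτ⟩
  · rintro ⟨y, hy, h⟩
    exact ⟨(f.1, y), hy, f.2, h, rfl⟩

theorem par_kids {n : ℕ} {τ τ' : Z2} (h : τ' ∈ kids n τ) : par n τ' = τ := by
  funext k
  unfold kids at h
  rw [Fintype.mem_piFinset] at h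
  have h1 := Finset.mem_Ico.1 (h k)
  have hn : (0 : ℤ) < 2 ^ n := by positivity
  show τ' k / 2 ^ n = τ k
  refine le_antisymm ?_ ?_
  · exact Int.lt_add_one_iff.1 (Int.ediv_lt_of_lt_mul hn (by rw [mul_comm]; exact h1.2))
  · exact Int.le_ediv_of_mul_le hn (by rw [mul_comm]; exact h1.1)

theorem Fg_le {V V' : Val} (h : V'.Le V) (i : ℕ) : Fg V' s n i ⊆ Fg V s n i := by
  induction i with
  | zero =>
    intro f hf
    rw [mem_Fg_zero] at hf ⊢
    exact ⟨h.1 hf.1, hf.2⟩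
  | succ i ih =>
    intro f hf
    rw [mem_Fg_succ] at hf ⊢
    obtain ⟨y, h1, h2⟩ := hf
    exact ⟨y, ih h1, h.2 _ _ h2⟩

/-- the node of a flag is reached -/
theorem Fg_D {V : Val} {i : ℕ} {f : Nd × Z2} (hk : ∀ j, j < i → ∀ S ∈ V.D s n j, V.G j (S.sg n) ⊆ kids n S.τ)
    (hr : ∀ x ∈ V.X, x.τ = 0) (hf : f ∈ Fg V s n i) :
    pth s n i f.1 f.2 ∈ V.D s n i ∧ (pth s n i f.1 f.2).τ = f.2 := by
  induction i generalizing f with
  | zero =>
    rw [mem_Fg_zero] at hf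
    refine ⟨hf.1, ?_⟩
    rw [pth_zero, hr _ hf.1, hf.2]
  | succ i ih =>
    rw [mem_Fg_succ] at hf
    obtain ⟨y, h1, h2⟩ := hf
    obtain ⟨g1, g2⟩ := ih (fun j hj => hk j (by omega)) h1
    have h3 := hk i (by omega) _ g1 h2
    rw [g2] at h3
    have h4 : par n f.2 = y := par_kids h3
    refine ⟨?_, rfl⟩
    rw [pth_succ, h4, Val.mem_D_succ]
    exact ⟨_, g1, f.2, h2, rfl⟩

/-- the truncation of a flag is a flag -/
theorem Fg_par {V : Val} {i : ℕ} {f : Nd × Z2} (hk : ∀ j, j < i + 1 → ∀ S ∈ V.D s n j, V.G j (S.sg n) ⊆ kids n S.τ)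
    (hr : ∀ x ∈ V.X, x.τ = 0) (hf : f ∈ Fg V s n (i + 1)) :
    (f.1, par n f.2) ∈ Fg V s n i ∧ f.2 ∈ V.G i ((pth s n i f.1 (par n f.2)).sg n) ∧ f.2 ∈ kids n (par n f.2) := by
  rw [mem_Fg_succ] at hf
  obtain ⟨y, h1, h2⟩ := hf
  obtain ⟨g1, g2⟩ := Fg_D (fun j hj => hk j (by omega)) hr h1
  have h3 := hk i (by omega) _ g1 h2
  rw [g2] at h3
  have h4 : par n f.2 = y := par_kids h3
  rw [h4]
  exact ⟨h1, h2, h3⟩

/-- every reached node is the node of a flag -/
theorem exists_Fg {V : Val} {i : ℕ} {S : Nd} (hk : ∀ j, j < i → ∀ S ∈ V.D s n j, V.G j (S.sg n) ⊆ kids n S.τ)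
    (hr : ∀ x ∈ V.X, x.τ = 0) (hS : S ∈ V.D s n i) : ∃ f ∈ Fg V s n i, pth s n i f.1 f.2 = S := by
  induction i generalizing S with
  | zero => exact ⟨(S, 0), mem_Fg_zero.2 ⟨hS, rfl⟩, rfl⟩
  | succ i ih =>
    rw [Val.mem_D_succ] at hS
    obtain ⟨S0, hS0, τ', hτ, rfl⟩ := hS
    obtain ⟨f, hf, e⟩ := ih (fun j hj => hk j (by omega)) hS0
    obtain ⟨-, g2⟩ := Fg_D (fun j hj => hk j (by omega)) hr hf
    have h3 := hk i (by omega) _ hS0 hτ
    rw [← e, g2] at h3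
    have h4 : par n τ' = f.2 := par_kids h3
    refine ⟨(f.1, τ'), mem_Fg_succ.2 ⟨f.2, hf, by rw [e]; exact hτ⟩, ?_⟩
    rw [pth_succ, h4, e]

/-! ### number of flags -/

theorem card_Fg_zero (V : Val) : (Fg V s n 0).card = V.X.card :=
  card_image_of_injective _ fun _ _ h => congrArg Prod.fst h

theorem card_Fg_succ {V : Val} {i : ℕ} (hk : ∀ j, j < i + 1 → ∀ S ∈ V.D s n j, V.G j (S.sg n) ⊆ kids n S.τ)
    (hr : ∀ x ∈ V.X, x.τ = 0) :
    (Fg V s n (i + 1)).card = ∑ f ∈ Fg V s n i, (V.G i ((pth s n i f.1 f.2).sg n)).card := by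
  have hpar : ∀ f ∈ Fg V s n i, ∀ τ' ∈ V.G i ((pth s n i f.1 f.2).sg n), par n τ' = f.2 := by
    intro f hf τ' hτ
    obtain ⟨g1, g2⟩ := Fg_D (fun j hj => hk j (by omega)) hr hf
    have h3 := hk i (by omega) _ g1 hτ
    rw [g2] at h3
    exact par_kids h3
  show ((Fg V s n i).biUnion fun f => (V.G i ((pth s n i f.1 f.2).sg n)).image fun τ' => (f.1, τ')).card = _
  rw [card_biUnion]
  · refine sum_congr rfl fun f _ => ?_
    exact card_image_of_injective _ fun _ _ h => congrArg Prod.snd h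
  · intro f hf g hg hfg
    rw [Function.onFun, disjoint_left]
    intro z hz hz'
    rw [mem_image] at hz hz'
    obtain ⟨τ, h1, rfl⟩ := hz
    obtain ⟨τ', h1', e⟩ := hz'
    refine hfg (Prod.ext (congrArg Prod.fst e).symm ?_)
    have e2 : τ' = τ := congrArg Prod.snd e
    subst e2
    rw [← hpar f hf _ h1, ← hpar g hg _ h1']

/-! ### nodes of the flags of level `K` -/

/-- the ancestor of a cap, `k` levels higher -/
noncomputable def an (n k : ℕ) (y : Z2) : Z2 := (par n)^[k] y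

theorem an_zero (y : Z2) : an n 0 y = y := rfl

theorem an_succ (k : ℕ) (y : Z2) : an n (k + 1) y = par n (an n k y) := by
  unfold an
  rw [Function.iterate_succ_apply']

theorem an_succ' (k : ℕ) (y : Z2) : an n (k + 1) y = an n k (par n y) := by
  unfold an
  rw [Function.iterate_succ_apply]

theorem an_apply (k : ℕ) (y : Z2) (j : Fin 2) : an n k y j = y j / 2 ^ (k * n) := by
  induction k with
  | zero => simp [an_zero]
  | succ k ih =>
    rw [an_succ]
    show an n k y j / 2 ^ n = _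
    rw [ih, Int.ediv_ediv_of_nonneg (by positivity), ← pow_add]
    congr 2
    ring

/-- the node of level `c` of a flag of level `K` -/
noncomputable def nd (s : ℕ → Z2 → Fin 2 → ℝ) (n K c : ℕ) (f : Nd × Z2) : Nd := pth s n c f.1 (an n (K - c) f.2)

theorem nd_zero (K : ℕ) (f : Nd × Z2) : nd s n K 0 f = f.1 := rfl

theorem nd_self (K : ℕ) (f : Nd × Z2) : nd s n K K f = pth s n K f.1 f.2 := by
  unfold nd
  rw [Nat.sub_self, an_zero]

theorem nd_succ_τ {K c : ℕ} (f : Nd × Z2) : (nd s n K (c + 1) f).τ = an n (K - (c + 1)) f.2 := rfl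

theorem nd_succ {K c : ℕ} (hc : c < K) (f : Nd × Z2) :
    nd s n K (c + 1) f = nx s n c (nd s n K c f) (nd s n K (c + 1) f).τ := by
  rw [nd_succ_τ]
  unfold nd
  rw [pth_succ]
  have : K - c = (K - (c + 1)) + 1 := by omega
  rw [this, an_succ]

section Ok

variable {C : ℝ} {K : ℕ} {F : Amp C n K} {V : Val} {ρ : ℝ} {a : ℕ → ℝ} {J : ℕ → ℕ}

theorem Fg_an (h : V.Ok F ρ a J) {k : ℕ} (hk : k ≤ K) {f : Nd × Z2} (hf : f ∈ Fg V F.s n K) :
    (f.1, an n k f.2) ∈ Fg V F.s n (K - k) := by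
  induction k with
  | zero => exact hf
  | succ k ih =>
    have h1 := ih (by omega)
    have e : K - k = (K - (k + 1)) + 1 := by omega
    rw [e] at h1
    have h2 := (Fg_par (fun j hj => h.kid j (by omega)) h.root h1).1
    rw [an_succ]
    exact h2

theorem Fg_lvl (h : V.Ok F ρ a J) {c : ℕ} (hc : c ≤ K) {f : Nd × Z2} (hf : f ∈ Fg V F.s n K) :
    (f.1, an n (K - c) f.2) ∈ Fg V F.s n c := by
  have := Fg_an h (k := K - c) (by omega) hf
  rwa [Nat.sub_sub_self hc] at this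

/-- the nodes of the flags are reached -/
theorem nd_D (h : V.Ok F ρ a J) {c : ℕ} (hc : c ≤ K) {f : Nd × Z2} (hf : f ∈ Fg V F.s n K) :
    nd F.s n K c f ∈ V.D F.s n c :=
  (Fg_D (fun j hj => h.kid j (by omega)) h.root (Fg_lvl h hc hf)).1

/-- the cap of the node -/
theorem nd_τ (h : V.Ok F ρ a J) {c : ℕ} (hc : c ≤ K) {f : Nd × Z2} (hf : f ∈ Fg V F.s n K) :
    (nd F.s n K c f).τ = an n (K - c) f.2 :=
  (Fg_D (fun j hj => h.kid j (by omega)) h.root (Fg_lvl h hc hf)).2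

theorem nd_G (h : V.Ok F ρ a J) {c : ℕ} (hc : c < K) {f : Nd × Z2} (hf : f ∈ Fg V F.s n K) :
    (nd F.s n K (c + 1) f).τ ∈ V.G c ((nd F.s n K c f).sg n) := by
  have h1 := Fg_lvl h (c := c + 1) (by omega) hf
  have h2 := (Fg_par (fun j hj => h.kid j (by omega)) h.root h1).2.1
  have e : K - c = (K - (c + 1)) + 1 := by omega
  unfold nd
  rw [e, an_succ]
  exact h2

theorem nd_kids (h : V.Ok F ρ a J) {c : ℕ} (hc : c < K) {f : Nd × Z2} (hf : f ∈ Fg V F.s n K) :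
    (nd F.s n K (c + 1) f).τ ∈ kids n (nd F.s n K c f).τ :=
  h.kid c hc _ (nd_D h hc.le hf) (nd_G h hc hf)

/-- number of flags -/
theorem card_Fg (h : V.Ok F ρ a J) {i : ℕ} (hi : i ≤ K) :
    V.X.card * 2 ^ (∑ j ∈ range i, J j) ≤ (Fg V F.s n i).card ∧
      (Fg V F.s n i).card ≤ V.X.card * 2 ^ (∑ j ∈ range i, (J j + 1)) := by
  induction i with
  | zero => simp [card_Fg_zero]
  | succ i ih =>
    obtain ⟨h1, h2⟩ := ih (by omega)
    have e := card_Fg_succ (s := F.s) (n := n) (V := V) (i := i) (fun j hj => h.kid j (by omega)) h.root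
    have hs : ∀ f ∈ Fg V F.s n i, 2 ^ J i ≤ (V.G i ((pth F.s n i f.1 f.2).sg n)).card ∧
        (V.G i ((pth F.s n i f.1 f.2).sg n)).card ≤ 2 ^ (J i + 1) := by
      intro f hf
      have := h.size i (by omega) _ (Fg_D (fun j hj => h.kid j (by omega)) h.root hf).1
      exact ⟨this.1, this.2.le⟩
    rw [sum_range_succ, sum_range_succ, pow_add, pow_add, e, ← mul_assoc, ← mul_assoc]
    constructor
    · calc V.X.card * 2 ^ (∑ j ∈ range i, J j) * 2 ^ J i ≤ (Fg V F.s n i).card * 2 ^ J i := Nat.mul_le_mul_right _ h1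
        _ ≤ _ := by
          rw [← smul_eq_mul]
          exact card_nsmul_le_sum _ _ _ fun f hf => (hs f hf).1
    · calc _ ≤ (Fg V F.s n i).card * 2 ^ (J i + 1) := by
            rw [← smul_eq_mul]
            exact sum_le_card_nsmul _ _ _ fun f hf => (hs f hf).2
        _ ≤ _ := Nat.mul_le_mul_right _ h2

end Ok

end Vale.Agent.P122.H610
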