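import Vale.Agent.P122.H610.Cnts

/-! # P122 / H610 : stable sequences of valid structures, dense laws (helper610)

* `W.D c i` reached nodes, `W.Jn c` normalised number of children, `W.en c` least counting excess.
* `W.Stable` : no refinement changes `Jn`, `en`.
* `W'.Incl W` : inclusion for all `i`; `exists_incl`; `VS.mk'` : constructor of refinements.
* `dns` : the law of a refinement of a stable sequence is dense; `flg_res`. -/

set_option autoImplicit false

namespace Vale.Agent.P122.H610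

open Filter Topology Finset Vale.Agent.P127 Vale.Agent.P127.Stk Vale.Agent.P127.U Vale.Agent.P127.U.Sys
  Vale.Agent.P122.C2 Vale.Agent.P122.E

variable {K : ℕ}

namespace VS

variable {Z : CS K} (W : VS Z)

/-- the reached nodes of level `c` -/
noncomputable def D (c i : ℕ) : Finset Nd := (W.V i).D (Z.F i).s (Z.n i) c

/-- normalised number of children -/
noncomputable def Jn (c : ℕ) : ℝ := Z.lg fun i => (W.J i c : ℝ)

/-- least counting excess of the reached nodes of level `c` -/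
noncomputable def en (c : ℕ) : ℝ :=
  sInf {e | 0 ≤ e ∧ ∀ ε : ℝ, 0 < ε → ∀ᶠ i in (uf : Filter ℕ),
    Dens (Z.F i).s (Z.n i) c {S | S ∈ W.D c i} ((2 : ℝ) ^ ((e + ε) * Z.L i))}

/-- no refinement changes the numbers of children and the excess -/
def Stable : Prop := ∀ W' : VS Z, W'.Le W → (∀ c, c < K → W'.Jn c = W.Jn c) ∧ ∀ c, c ≤ K → W'.en c = W.en c

/-- inclusion for all `i` -/
def Incl (W' W : VS Z) : Prop := ∀ i, (W'.V i).Le (W.V i)

variable {W} {W' W'' : VS Z}

theorem Le.refl (W : VS Z) : W.Le W := by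
  refine ⟨Eventually.of_forall fun i => Val.Le.refl _, Eventually.of_forall fun i => rfl, ?_⟩
  refine (CS.Big.const (Z := Z) one_pos).mono (Eventually.of_forall fun i => ?_)
  have : ((W.V i).X.card : ℝ) ≠ 0 := by exact_mod_cast (W.ne i).card_pos.ne'
  rw [div_self this]

theorem Le.trans (h : W''.Le W') (h' : W'.Le W) : W''.Le W := by
  refine ⟨?_, ?_, ?_⟩
  · filter_upwards [h.le, h'.le] with i h1 h2
    exact h1.trans h2
  · filter_upwards [h.a_eq, h'.a_eq] with i h1 h2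
    exact h1.trans h2
  · refine (h.big.mul h'.big).mono (Eventually.of_forall fun i => ?_)
    have : ((W'.V i).X.card : ℝ) ≠ 0 := by exact_mod_cast (W'.ne i).card_pos.ne'
    rw [div_mul_div_cancel₀ this]

theorem Stable.le (hS : W.Stable) (h : W'.Le W) : W'.Stable := by
  intro W'' h''
  obtain ⟨h1, h2⟩ := hS W' h
  obtain ⟨h3, h4⟩ := hS W'' (h''.trans h)
  exact ⟨fun c hc => (h3 c hc).trans (h1 c hc).symm, fun c hc => (h4 c hc).trans (h2 c hc).symm⟩

theorem J_le (i c : ℕ) (hc : c < K) : W.J i c ≤ 2 * Z.n i := by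
  obtain ⟨f, hf⟩ := W.fl_ne i
  have h1 := nd_D (W.ok i) hc.le hf
  have h2 := ((W.ok i).size c hc _ h1).1
  have h3 := card_le_card ((W.ok i).kid c hc _ h1)
  rw [card_kids] at h3
  exact (Nat.pow_le_pow_iff_right (by norm_num)).1 (h2.trans h3)

theorem J_OL {c : ℕ} (hc : c < K) : Z.OL fun i => (W.J i c : ℝ) := by
  refine CS.OL.of_le (c := 2) (Eventually.of_forall fun i => Nat.cast_nonneg _) (Eventually.of_forall fun i => ?_)
  have h1 : (W.J i c : ℝ) ≤ 2 * Z.n i := by exact_mod_cast W.J_le i c hc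
  have h2 := Z.n_le_L i
  linarith

theorem Jn_nonneg {c : ℕ} (hc : c < K) : 0 ≤ W.Jn c := by
  have h := CS.lg_mono (CS.OL.const (Z := Z) 0) (W.J_OL hc) (Eventually.of_forall fun i => Nat.cast_nonneg _)
  rwa [CS.lg_const] at h

theorem Jn_sum : Z.lg (fun i => ((∑ c ∈ range K, W.J i c : ℕ) : ℝ)) = ∑ c ∈ range K, W.Jn c := by
  have h := CS.lg_sum (Z := Z) (range K) (f := fun c i => (W.J i c : ℝ)) fun c hc => W.J_OL (mem_range.1 hc)
  unfold Jn
  rw [← h]
  refine CS.lg_congr (Eventually.of_forall fun i => ?_)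
  push_cast
  rfl

theorem sumJ_OL : Z.OL fun i => ((∑ c ∈ range K, W.J i c : ℕ) : ℝ) := by
  have h := CS.OL.sum (Z := Z) (range K) (f := fun c i => (W.J i c : ℝ)) fun c hc => W.J_OL (mem_range.1 hc)
  refine h.congr (Eventually.of_forall fun i => ?_)
  push_cast
  rfl

/-! ### construction of refinements -/

open Classical in
/-- the sequence `W` modified by a sequence of data which are valid at almost every `i` -/
theorem exists_mk (W : VS Z) (V' : ℕ → Val) (ρ' : ℕ → ℝ) (J' : ℕ → ℕ → ℕ)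
    (h : ∀ᶠ i in (uf : Filter ℕ), (V' i).Le (W.V i) ∧ ρ' i ≤ 1 ∧ (V' i).Ok (Z.F i) (ρ' i) (W.a i) (J' i))
    (hρ : Z.Big ρ') (hX : Z.Big fun i => ((V' i).X.card : ℝ) / (W.V i).X.card) :
    ∃ W' : VS Z, W'.Le W ∧ W'.Incl W ∧
      ∀ᶠ i in (uf : Filter ℕ), W'.V i = V' i ∧ W'.J i = J' i ∧ W'.ρ i = ρ' i ∧ W'.a i = W.a i := by
  set G : ℕ → Prop := fun i => ((V' i).Le (W.V i) ∧ ρ' i ≤ 1 ∧ (V' i).Ok (Z.F i) (ρ' i) (W.a i) (J' i)) ∧ 0 < ρ' i ∧
    (V' i).X.Nonempty with hG
  have hne : ∀ᶠ i in (uf : Filter ℕ), (V' i).X.Nonempty := by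
    filter_upwards [hX.pos] with i hi
    by_contra hcon
    rw [Finset.not_nonempty_iff_eq_empty] at hcon
    rw [hcon] at hi
    simp at hi
  have hGe : ∀ᶠ i in (uf : Filter ℕ), G i := by
    filter_upwards [h, hρ.pos, hne] with i h1 h2 h3
    exact ⟨h1, h2, h3⟩
  have key : ∀ i, ∃ (v : Val) (r : ℝ) (j : ℕ → ℕ), v.Le (W.V i) ∧ r ≤ 1 ∧ v.Ok (Z.F i) r (W.a i) j ∧ 0 < r ∧ v.X.Nonempty ∧
      (G i → v = V' i ∧ j = J' i ∧ r = ρ' i) := by
    intro i
    by_cases hi : G i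
    · exact ⟨V' i, ρ' i, J' i, hi.1.1, hi.1.2.1, hi.1.2.2, hi.2.1, hi.2.2, fun _ => ⟨rfl, rfl, rfl⟩⟩
    · exact ⟨W.V i, W.ρ i, W.J i, Val.Le.refl _, W.ρ1 i, W.ok i, W.ρpos i, W.ne i, fun h => absurd h hi⟩
  choose v r j k1 k2 k3 k4 k5 k6 using key
  have hev : ∀ᶠ i in (uf : Filter ℕ), v i = V' i ∧ j i = J' i ∧ r i = ρ' i := hGe.mono fun i hi => k6 i hi
  refine ⟨⟨v, r, W.a, j, k3, k5, fun i x hx => W.tim i x ((k1 i).1 hx), k4, k2, hρ.mono ?_⟩, ⟨?_, ?_, ?_⟩, k1, ?_⟩
  · exact hev.mono fun i hi => hi.2.2.ge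
  · exact Eventually.of_forall fun i => k1 i
  · exact Eventually.of_forall fun i => rfl
  · refine hX.mono ?_
    filter_upwards [hev] with i hi
    show ((V' i).X.card : ℝ) / _ ≤ ((v i).X.card : ℝ) / _
    rw [hi.1]
  · exact hev.mono fun i hi => ⟨hi.1, hi.2.1, hi.2.2, rfl⟩

/-- a refinement can be made an inclusion for all `i` -/
theorem exists_incl (h : W'.Le W) : ∃ W'' : VS Z, W''.Le W ∧ W''.Incl W ∧
    ∀ᶠ i in (uf : Filter ℕ), W''.V i = W'.V i ∧ W''.J i = W'.J i ∧ W''.ρ i = W'.ρ i ∧ W''.a i = W.a i := by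
  refine exists_mk W W'.V W'.ρ W'.J ?_ W'.ρbig h.big
  filter_upwards [h.le, h.a_eq] with i h1 h2
  exact ⟨h1, W'.ρ1 i, h2 ▸ W'.ok i⟩

/-! ### density -/

/-- **number of flags of a refinement** of a stable sequence -/
theorem card_big (hJ : ∀ c, c < K → W'.Jn c = W.Jn c) (h : W'.Le W) :
    Z.Big fun i => ((W'.fl i).card : ℝ) / (W.fl i).card := by
  refine CS.Big.of_log (Eventually.of_forall fun i => ?_) fun ε hε => ?_
  · have h1 : (0 : ℝ) < (W'.fl i).card := by exact_mod_cast (W'.fl_ne i).card_pos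
    have h2 : (0 : ℝ) < (W.fl i).card := by exact_mod_cast (W.fl_ne i).card_pos
    positivity
  · have hsum : Z.lg (fun i => ((∑ c ∈ range K, W'.J i c : ℕ) : ℝ)) =
        Z.lg (fun i => ((∑ c ∈ range K, W.J i c : ℕ) : ℝ)) := by
      rw [W'.Jn_sum, W.Jn_sum]
      exact Finset.sum_congr rfl fun c hc => hJ c (mem_range.1 hc)
    filter_upwards [CS.lg_le (W'.sumJ_OL) (show 0 < ε / 4 by positivity), CS.le_lg (W.sumJ_OL) (show 0 < ε / 4 by positivity),
      h.big.neg_log_le (show 0 < ε / 4 by positivity), CS.const_le (Z := Z) (K : ℝ) (show 0 < ε / 4 by positivity)]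
      with i h1 h2 h3 h4
    rw [hsum] at h1
    have c1 := (card_Fg (W'.ok i) (i := K) le_rfl).1
    have c2 := (card_Fg (W.ok i) (i := K) le_rfl).2
    have x1 : (0 : ℝ) < (W'.V i).X.card := by exact_mod_cast (W'.ne i).card_pos
    have x2 : (0 : ℝ) < (W.V i).X.card := by exact_mod_cast (W.ne i).card_pos
    have f1 : (0 : ℝ) < (W'.fl i).card := by exact_mod_cast (W'.fl_ne i).card_pos
    have f2 : (0 : ℝ) < (W.fl i).card := by exact_mod_cast (W.fl_ne i).card_pos
    have c1' : ((W'.V i).X.card : ℝ) * 2 ^ ((∑ c ∈ range K, W'.J i c : ℕ) : ℝ) ≤ (W'.fl i).card := by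
      rw [Real.rpow_natCast]
      exact_mod_cast c1
    have c2' : ((W.fl i).card : ℝ) ≤ (W.V i).X.card * 2 ^ ((((∑ c ∈ range K, W.J i c : ℕ) : ℝ)) + K) := by
      have e : (((∑ c ∈ range K, W.J i c : ℕ) : ℝ)) + K = ((∑ c ∈ range K, (W.J i c + 1) : ℕ) : ℝ) := by
        rw [Finset.sum_add_distrib]
        simp
      rw [e, Real.rpow_natCast]
      exact_mod_cast c2
    have l1 := Real.logb_le_logb_of_le (by norm_num : (1:ℝ) < 2) (by positivity) c1'
    have l2 := Real.logb_le_logb_of_le (by norm_num : (1:ℝ) < 2) f2 c2'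
    rw [Real.logb_mul x1.ne' (by positivity), Real.logb_rpow (by norm_num) (by norm_num)] at l1
    rw [Real.logb_mul x2.ne' (by positivity), Real.logb_rpow (by norm_num) (by norm_num)] at l2
    rw [Real.logb_div x1.ne' x2.ne'] at h3
    rw [Real.logb_div f1.ne' f2.ne']
    linarith

/-- the inclusion of the flags -/
def inc (h : W'.Incl W) (i : ℕ) (ω : W'.sys.Ω i) : W.sys.Ω i := ⟨ω.1, Fg_le (h i) K ω.2⟩

theorem inc_inj (h : W'.Incl W) (i : ℕ) : Function.Injective (inc h i) := by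
  intro ω ω' e
  exact Subtype.ext (congrArg (fun t : W.sys.Ω i => t.1) e)

theorem inc_pr (h : W'.Incl W) (i : ℕ) (ω : W.sys.Ω i) : (W'.sys.P i).pr (inc h i) ω ≤ 1 / ((W'.fl i).card : ℝ) := by
  classical
  have e := uL_pr (W'.fl_ne i) (inc h i) ω
  refine (le_of_eq e).trans ?_
  refine div_le_div_of_nonneg_right ?_ (Nat.cast_nonneg _)
  have : (univ.filter fun f => inc h i f = ω).card ≤ 1 := by
    rw [Finset.card_le_one]
    intro a ha b hb
    rw [mem_filter] at ha hb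
    exact inc_inj h i (ha.2.trans hb.2.symm)
  exact_mod_cast this

/-- **the law of a refinement is dense** -/
def dns (hJ : ∀ c, c < K → W'.Jn c = W.Jn c) (h : W'.Le W) (hi : W'.Incl W) : Dns W'.sys W.sys where
  π := inc hi
  L_eq := rfl
  dom := by
    intro ε hε
    have hb := card_big hJ h
    filter_upwards [hb (ε) hε] with i h1 ω
    refine (inc_pr hi i ω).trans ?_
    rw [sys_w]
    have f1 : (0 : ℝ) < (W'.fl i).card := by exact_mod_cast (W'.fl_ne i).card_pos
    have f2 : (0 : ℝ) < (W.fl i).card := by exact_mod_cast (W.fl_ne i).card_pos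
    have h2 : (2 : ℝ) ^ (-(ε * W.sys.L i)) ≤ (W'.fl i).card / (W.fl i).card := by
      refine le_trans (Real.rpow_le_rpow_of_exponent_le (by norm_num) ?_) h1
      have := mul_le_mul_of_nonneg_left (Z.n_le_L i) hε.le
      have e : (W.sys.L i : ℝ) = Z.L i := rfl
      rw [e]
      linarith
    rw [Real.rpow_neg (by norm_num), ← one_div, div_le_div_iff₀ (by positivity) f2] at h2
    rw [mul_one_div, div_le_div_iff₀ f1 f2]
    linarith

theorem dns_supp (hJ : ∀ c, c < K → W'.Jn c = W.Jn c) (h : W'.Le W) (hi : W'.Incl W) (i : ℕ) (ω : W'.sys.Ω i)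
    (_ : 0 < (W'.sys.P i).w ω) : 0 < (W.flg.S.P i).w ((dns hJ h hi).π i ω) := sys_pos W i _

theorem flg_res (hJ : ∀ c, c < K → W'.Jn c = W.Jn c) (h : W'.Le W) (hi : W'.Incl W) :
    W'.flg = W.flg.res (dns hJ h hi) (dns_supp hJ h hi) := rfl

end VS

end Vale.Agent.P122.H610
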