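import Vale.Agent.P122.H610.Law
import Vale.Agent.P122.E.Defs

/-! # P122 / H610 : sequences of valid structures and their systems of flags (helper610)

* `CS K` : a sequence of amplitudes with `n i → ∞`.
* `Z.Big f` : `f i ≥ 2^(-o(n i))`.
* `VS Z` : a sequence of valid structures with losses `ρ i ≥ 2^(-o(n i))`.
* `W.sys`, `W.flg` : the uniform law on the flags, as `Sys` and as `E.Flg`.
* `W'.Le W` : refinement (eventually), with the same levels of the amplitudes and `#X' ≥ 2^(-o(n)) #X`. -/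

set_option autoImplicit false

namespace Vale.Agent.P122.H610

open Filter Topology Finset Vale.Agent.P127 Vale.Agent.P127.Stk Vale.Agent.P127.U Vale.Agent.P127.U.Sys
  Vale.Agent.P122.C2 Vale.Agent.P122.E

/-- a sequence of amplitudes -/
structure CS (K : ℕ) where
  K1 : 1 ≤ K
  n : ℕ → ℕ
  ntop : Tendsto n (uf : Filter ℕ) atTop
  C : ℝ
  C1 : 1 ≤ C
  F : ∀ i, Amp C (n i) K

variable {K : ℕ}

/-- `f i ≥ 2^(-o(n i))` -/
def CS.Big (Z : CS K) (f : ℕ → ℝ) : Prop :=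
  ∀ ε : ℝ, 0 < ε → ∀ᶠ i in (uf : Filter ℕ), (2 : ℝ) ^ (-(ε * Z.n i)) ≤ f i

/-- a sequence of valid structures -/
structure VS (Z : CS K) where
  V : ℕ → Val
  ρ : ℕ → ℝ
  a : ℕ → ℕ → ℝ
  J : ℕ → ℕ → ℕ
  ok : ∀ i, (V i).Ok (Z.F i) (ρ i) (a i) (J i)
  ne : ∀ i, (V i).X.Nonempty
  tim : ∀ i, ∀ x ∈ (V i).X, 0 ≤ x.T ∧ x.T < 2 ^ (2 * K * Z.n i)
  ρpos : ∀ i, 0 < ρ i
  ρ1 : ∀ i, ρ i ≤ 1
  ρbig : Z.Big ρ

/-- refinement -/
structure VS.Le {Z : CS K} (W' W : VS Z) : Prop where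
  le : ∀ᶠ i in (uf : Filter ℕ), (W'.V i).Le (W.V i)
  a_eq : ∀ᶠ i in (uf : Filter ℕ), W'.a i = W.a i
  big : Z.Big fun i => ((W'.V i).X.card : ℝ) / (W.V i).X.card

/-! ### the system of flags -/

namespace VS

variable {Z : CS K} (W : VS Z)

/-- the flags -/
noncomputable def fl (i : ℕ) : Finset (Nd × Z2) := Fg (W.V i) (Z.F i).s (Z.n i) K

theorem fl_ne (i : ℕ) : (W.fl i).Nonempty := by
  rw [← card_pos]
  have h1 := (card_Fg (W.ok i) (i := K) le_rfl).1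
  have h2 : 0 < (W.V i).X.card := (W.ne i).card_pos
  exact lt_of_lt_of_le (by positivity) h1

/-- the uniform law on the flags -/
noncomputable def sys : Sys where
  Ω := fun i => {f // f ∈ W.fl i}
  fin := fun _ => inferInstance
  P := fun i => uL (W.fl i) (W.fl_ne i)
  L := fun i => K * Z.n i
  Ltop := Z.ntop.const_mul_atTop' (lt_of_lt_of_le Nat.zero_lt_one Z.K1)

theorem sys_w (i : ℕ) (ω : W.sys.Ω i) : (W.sys.P i).w ω = 1 / ((W.fl i).card : ℝ) := rfl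

theorem sys_pos (i : ℕ) (ω : W.sys.Ω i) : 0 < (W.sys.P i).w ω := uL_pos (W.fl_ne i) ω

theorem sys_L (i : ℕ) : W.sys.L i = K * Z.n i := rfl

/-- the system of flags -/
noncomputable def flg : Flg K where
  C := Z.C
  S := W.sys
  n := Z.n
  L_eq := fun _ => rfl
  s := fun i => (Z.F i).s
  slp := fun i => (Z.F i).slp
  N := fun c i ω => nd (Z.F i).s (Z.n i) K c ω.1
  root := by
    intro i ω _
    have h1 : ω.1.1 ∈ (W.V i).X := nd_D (W.ok i) (c := 0) (Nat.zero_le _) ω.2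
    exact ⟨(W.ok i).root _ h1, W.tim i _ h1⟩
  top := by
    intro i ω _ k
    have h1 := nd_D (W.ok i) (c := K) le_rfl ω.2
    have h2 := (W.ok i).amp K le_rfl _ h1
    have h3 := (W.ok i).apos K le_rfl
    exact ((Z.F i).supp _ (by linarith [h2.1] : (0:ℝ) < (Z.F i).a K _).ne').2.2 k
  step := by
    intro i ω _ c hc
    exact ⟨nd_kids (W.ok i) hc ω.2, nd_succ hc ω.1⟩

theorem flg_N (c i : ℕ) (ω : W.sys.Ω i) : W.flg.N c i ω = nd (Z.F i).s (Z.n i) K c ω.1 := rfl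

end VS

end Vale.Agent.P122.H610
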